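import Vale.Agent.P092.H866.T.Erg

/-!
P092 (helper156), project VR: ergodicity at a place which is an overgroup of finite index
of a connected factor.
-/

set_option linter.all false

open scoped InnerProductSpace Topology ENNReal
open Filter ContinuousLinearMap

namespace Vale.Agent.P092.VR

open Vale.Agent.P092.H160 Vale.Agent.P092.H103 Vale.Agent.P092.H962 Vale.Agent.P092.H333
open Vale.Agent.P092.PA (FacS)
open Vale.Agent.P092.H866 (fd_of_facS inf_conj_icc reps_bij FD)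
open Vale.Agent.P092.H866.T

/-! ### groups -/

section grp

variable {Γ G : Type} [Group Γ] [Group G] [TopologicalSpace G]

/-- An ICC group is relatively ICC over each subgroup of finite index. -/
theorem ricc_of_fi (hΓ : SR.St.ICC Γ) (Θ : Subgroup Γ) [Θ.FiniteIndex] : RIcc (Θ : Set Γ) := by
  intro h hh hfin
  haveI : Finite (Γ ⧸ Θ) := Subgroup.finite_quotient_of_finiteIndex
  refine hΓ h hh ?_
  refine (Set.finite_iUnion fun q : Γ ⧸ Θ =>
    hfin.image fun x => q.out * x * (q.out)⁻¹).subset ?_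
  rintro _ ⟨g, rfl⟩
  refine Set.mem_iUnion.2 ⟨(g : Γ ⧸ Θ), ((g : Γ ⧸ Θ).out⁻¹ * g) * h * ((g : Γ ⧸ Θ).out⁻¹ * g)⁻¹,
    ⟨_, ?_, rfl⟩, ?_⟩
  · exact QuotientGroup.eq.1 (QuotientGroup.out_eq' (g : Γ ⧸ Θ))
  · group

/-- the restriction of `p` to the preimage of `N` -/
def rst (p : Γ →* G) (N : Subgroup G) : (N.comap p) →* N :=
  (p.comp (N.comap p).subtype).codRestrict N fun x => x.2

theorem rst_coe (p : Γ →* G) (N : Subgroup G) (x : N.comap p) : ((rst p N x : N) : G) = p x := rfl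

theorem rst_dense {p : Γ →* G} (hp : DenseRange p) (N : Subgroup G) (ho : IsOpen (N : Set G)) :
    DenseRange (rst p N) := by
  intro y
  rw [mem_closure_iff]
  intro o ho' hy
  have h1 : IsOpen (Subtype.val '' o : Set G) := ho.isOpenMap_subtype_val o ho'
  obtain ⟨g, z, hz, hzg⟩ := hp.exists_mem_open h1 ⟨_, y, hy, rfl⟩
  have hg : g ∈ N.comap p := by
    rw [Subgroup.mem_comap, ← hzg]
    exact z.2
  refine ⟨z, hz, ⟨⟨g, hg⟩, Subtype.ext ?_⟩⟩
  rw [rst_coe]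
  exact hzg.symm

theorem rst_tendsto (p : Γ →* G) (N : Subgroup G) :
    Tendsto (Subtype.val : N.comap p → Γ) (comap (rst p N) (𝓝 1)) (comap p (𝓝 1)) := by
  rw [tendsto_comap_iff]
  have h1 : Tendsto (Subtype.val : N → G) (𝓝 1) (𝓝 1) := continuous_subtype_val.tendsto (1 : N)
  exact h1.comp tendsto_comap

theorem fi_comap (p : Γ →* G) (N : Subgroup G) [hN : N.FiniteIndex] :
    (N.comap p).FiniteIndex := by
  refine ⟨?_⟩
  rw [Subgroup.index_comap]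
  haveI : N.IsFiniteRelIndex p.range := Subgroup.isFiniteRelIndex_of_finiteIndex
  exact Subgroup.IsFiniteRelIndex.relIndex_ne_zero

end grp

/-! ### frames -/

section fr

variable {A κ K : Type} [Group A] [NormedAddCommGroup K] [InnerProductSpace ℂ K] [CompleteSpace K]
  {π : A →* (K →L[ℂ] K)} {ζ : κ → K}

/-- The restriction of a frame to a subgroup. -/
theorem fr_sub (h : Fr π ζ) (C : Subgroup A) {ι : Type} {x : ι → A}
    (hx : Function.Bijective fun z : ι × C => (z.2 : A) * x z.1) :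
    Fr (π.comp C.subtype) (yy π ζ x) where
  adj a := h.adj a
  par v := by
    have h2 := (Equiv.ofBijective _ (bij_idx (κ := κ) hx)).hasSum_iff.mpr (h.par v)
    have e : (fun z : (ι × κ) × C => ‖⟪(π.comp C.subtype) z.2 (yy π ζ x z.1), v⟫_ℂ‖ ^ 2) =
        (fun z : κ × A => ‖⟪π z.2 (ζ z.1), v⟫_ℂ‖ ^ 2) ∘
          (Equiv.ofBijective _ (bij_idx (κ := κ) hx)) := by
      funext z
      change ‖⟪π (z.2 : A) (π (x z.1.1) (ζ z.1.2)), v⟫_ℂ‖ ^ 2 =
        ‖⟪π ((z.2 : A) * x z.1.1) (ζ z.1.2), v⟫_ℂ‖ ^ 2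
      rw [map_mul]
      rfl
    rw [e]
    exact h2

end fr

section erg

variable {I Λ Γ : Type} [Group Λ] [Group Γ] [Fintype I]
  {α : Γ → (Ell2 (I × Λ) →L[ℂ] Ell2 (I × Λ))}

/-- The stripped comultiplication is ergodic at a connected place of a subgroup of finite index. -/
theorem ergC_sub {N : Type} [Group N] [TopologicalSpace N] [IsTopologicalGroup N]
    [PreconnectedSpace N] (hα : AF α)
    (hΛ : ∀ s : Λ, s ≠ 1 → Set.Infinite {y : Λ | ∃ h, y = h * s * h⁻¹})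
    (Θ : Subgroup Γ) [Θ.FiniteIndex] (hΘ : RIcc (Θ : Set Γ)) {p : Θ →* N} (hp : DenseRange p)
    (hfd : FD p)
    (hF1 : ∀ g : Θ, g ≠ 1 → ∀ W ∈ 𝓝 (1 : N), {y | ∃ w, p w ∈ W ∧ y = w * g * w⁻¹}.Infinite)
    {X : Ell2 (I × ((Unit × Λ) × (Unit × Λ))) →L[ℂ] Ell2 (I × ((Unit × Λ) × (Unit × Λ)))}
    (hPX : VT Unit Unit (α 1) * X = X) (hXP : X * VT Unit Unit (α 1) = X)
    (hR : ∀ s t : Λ, X * tens 1 (tens (tens 1 (rho s)) (tens 1 (rho t))) =
      tens 1 (tens (tens 1 (rho s)) (tens 1 (rho t))) * X)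
    (hcont : CtA (comap p (𝓝 1)) (fun w : Θ => VT Unit Unit (α (w : Γ)))
      (fun w : Θ => VT Unit Unit (α ((w⁻¹ : Θ) : Γ))) X) :
    ∃ c : ℂ, X = c • VT Unit Unit (α 1) := by
  haveI : Finite (Γ ⧸ Θ) := Subgroup.finite_quotient_of_finiteIndex
  haveI : Fintype (Γ ⧸ Θ) := Fintype.ofFinite _
  obtain ⟨m, ζ, hU⟩ := frU hα hΛ
  have hU' := fr_sub (x := fun q : Γ ⧸ Θ => (q.out)⁻¹) hU Θ (reps_bij Θ)
  have hj : H776.TC.JDM (rE hα) (RU I) (Js α) (fun g => ((aU hα).comp Θ.subtype) g)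
      (fun k : Θ => VT Unit Unit (α (k : Γ))) := jdm hα hΘ
  have hPD : ∀ (s : Λ) (v : Ell2 (I × Λ)), VT Unit Unit (α 1) (Ds I s v) = Ds I s (α 1 v) :=
    fun s v => VT_Ds _ _ _
  have hPadj : adjoint (VT Unit Unit (α 1)) = VT Unit Unit (α 1) := by rw [VT_adj, hα.p_adj]
  have hinc : ∀ v : Ell2 (I × Λ), α 1 v = inc (α 1) (prj (pA_prj hα) v) := fun v => rfl
  obtain ⟨c, hc⟩ := erg_jdm hj hU' (frR hα) (fun w q => VT_RU hα (w : Γ) q) hΛ hp hfd hF1
    (X := X) (VT Unit Unit (α 1)) hPX (fun η h1 h2 => by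
      apply ext_inner_dl
      rintro ⟨i, ⟨u, a⟩, ⟨u', b⟩⟩
      have h3 : (dl (i, ((u, a), (u', b))) : Ell2 (I × ((Unit × Λ) × (Unit × Λ)))) =
          Ds I (a⁻¹ * b) (dl (i, a)) := by
        rw [Ds_dl, mul_inv_cancel_left]
      have h4 : ⟪(dl (i, ((u, a), (u', b))) : Ell2 (I × ((Unit × Λ) × (Unit × Λ)))), η⟫_ℂ = 0 := by
        rw [h3, ← h1, ← adjoint_inner_left, hPadj, hPD, hinc]
        change ⟪Js α (a⁻¹ * b) (prj (pA_prj hα) (dl (i, a))), η⟫_ℂ = 0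
        rw [← adjoint_inner_right, h2, inner_zero_right]
      rw [inner_dl] at h4
      rw [h4]
      rfl)
    (fun s => by
      ext1 e
      change VT Unit Unit (α 1) (Ds I s (inc (α 1) e)) = Ds I s (inc (α 1) e)
      rw [hPD, p_inc])
    (fun p => hR p.1 p.2) (fun k ε hε => hcont.eps _ hε)
  refine ⟨c, op_ext ?_⟩
  rintro ⟨i, ⟨u, a⟩, ⟨u', b⟩⟩
  have h3 : (dl (i, ((u, a), (u', b))) : Ell2 (I × ((Unit × Λ) × (Unit × Λ)))) =
      Ds I (a⁻¹ * b) (dl (i, a)) := by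
    rw [Ds_dl, mul_inv_cancel_left]
  rw [h3]
  have h4 := congrArg (fun L : Ell2 (I × ((Unit × Λ) × (Unit × Λ))) →L[ℂ]
    Ell2 (I × ((Unit × Λ) × (Unit × Λ))) => L (Ds I (a⁻¹ * b) (dl (i, a)))) hXP
  change X (VT Unit Unit (α 1) (Ds I (a⁻¹ * b) (dl (i, a)))) = X (Ds I (a⁻¹ * b) (dl (i, a))) at h4
  change X (Ds I (a⁻¹ * b) (dl (i, a))) = c • VT Unit Unit (α 1) (Ds I (a⁻¹ * b) (dl (i, a)))
  rw [← h4, hPD, hinc]
  exact hc _ _

/-- **Ergodicity at an overgroup of finite index of a connected factor**, for all amplifications. -/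
theorem ergC_conn_over {J K G : Type} [Group G] [TopologicalSpace G] [Fintype J] [Fintype K]
    {β : Γ → (Ell2 (J × Λ) →L[ℂ] Ell2 (J × Λ))}
    {γ : Γ → (Ell2 (K × Λ) →L[ℂ] Ell2 (K × Λ))} {p : Γ →* G}
    (N : Subgroup G) (ho : IsOpen (N : Set G)) [N.FiniteIndex] (hc : PreconnectedSpace N)
    (hN : FacS N) (hΓ : SR.St.ICC Γ) (hΛ : SR.St.ICC Λ) (hα : AF α) (hβ : AF β) (hγ : AF γ)
    (hp : DenseRange p) :
    H333.Amp.ErgC p (V3 hα hβ hγ) (A3R hα hβ hγ) (B3R hα hβ hγ) := by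
  haveI := hN.top
  haveI := hN.t2
  haveI := fi_comap p N
  have hpd := rst_dense hp N ho
  have hricc := ricc_of_fi hΓ (N.comap p)
  have hU : ErgC α p := by
    intro X hPX hXP hR hcont
    refine ergC_sub hα hΛ (N.comap p) hricc hpd (fd_of_facS hN hpd)
      (fun g hg W hW => inf_conj_icc hpd ?_ hW) hPX hXP hR ?_
    · intro hfin
      refine hricc (g : Γ) (fun h => hg (Subtype.ext h)) ?_
      refine (hfin.image Subtype.val).subset ?_
      rintro _ ⟨h, hh, rfl⟩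
      exact ⟨⟨h, hh⟩ * g * ⟨h, hh⟩⁻¹, ⟨⟨h, hh⟩, rfl⟩, rfl⟩
    · intro ξ
      exact (hcont ξ).comp (rst_tendsto p N)
  intro x hA hB hct
  exact erg_HH_ct hΛ hα hβ hγ hU (P := PT α β γ) rfl (V3_val hα hβ hγ) (A3R_val hα hβ hγ)
    (B3R_val hα hβ hγ) hA hB hct

end erg

end Vale.Agent.P092.VR
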