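import Vale.Agent.P092.QT.H448.Gal2
import Vale.Agent.P092.VR.QDefs
import Vale.Agent.P092.VR.H978.Faith

/-!
P092 (helper156), project VR: `VR.Q.GalStmt` (proof of helper448, separation from `FacV.big`).
-/

set_option linter.all false

open scoped InnerProductSpace Topology ENNReal ComplexConjugate Pointwise
open Filter ContinuousLinearMap MeasureTheory Set
open Vale.Agent.P092.H160 Vale.Agent.P092.QT.H156.Sm Vale.Agent.P092.QT.H650
open Vale.Agent.P092.QT.H715.Q (Dbl fl F1 TwS)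
open Vale.Agent.P092.QT.H448.Gal

namespace Vale.Agent.P092.VR.H156.Gal

section stmt

variable {Γ X Y G H K : Type} [Group Γ] [Group X] [Group Y] [Group G] [Group H]
  [Countable X] [Countable Y] [Countable Γ]
  [TopologicalSpace G] [TopologicalSpace H] [IsTopologicalGroup G] [IsTopologicalGroup H]
  [MeasurableSpace G] [BorelSpace G] [SecondCountableTopology G] [LocallyCompactSpace G]
  [T2Space G]
  [MeasurableSpace H] [BorelSpace H] [SecondCountableTopology H] [LocallyCompactSpace H]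
  [T2Space H]
  [NormedAddCommGroup K] [InnerProductSpace ℂ K] [CompleteSpace K]
  {V W : Γ →* (K →L[ℂ] K)} {f : X →* Γ} {ρ : X →* (K →L[ℂ] K)} {f' : Y →* Γ}
  {ρ' : Y →* (K →L[ℂ] K)} {ω ω' : K}
  {p : Γ →* G} {κ : Γ →* H} {μ : Measure G} {ν : Measure H}
  [μ.IsHaarMeasure] [μ.IsMulRightInvariant] [ν.IsHaarMeasure] [ν.IsMulRightInvariant]

/-- Separation, from the normal subgroups of the place. -/
theorem sep_facV (hG : VR.FacV G) (D : Dbl V W f ρ f' ρ' ω ω') (hp : DenseRange p)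
    (hκ : DenseRange κ)
    (hne : ∃ b, TwS V f ρ ω ω' p κ μ ν b ∧ b ≠ 0) (z : G)
    (hz : ∀ S, TwS V f ρ ω ω' p κ μ ν S → ∀ t, S (t * z) = S t) : z = 1 := by
  let N : Subgroup G :=
    { carrier := {z | ∀ S, TwS V f ρ ω ω' p κ μ ν S → ∀ t, S (t * z) = S t}
      one_mem' := fun S hS t => by rw [mul_one]
      mul_mem' := fun {a b} ha hb S hS t => by rw [← mul_assoc, hb S hS, ha S hS]
      inv_mem' := fun {a} ha S hS t => by
        have h3 := ha S hS (t * a⁻¹)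
        rw [inv_mul_cancel_right] at h3
        exact h3.symm }
  have hN : N.Normal := by
    refine ⟨fun n hn g S hS t => ?_⟩
    have h3 : S (t * g * n * g⁻¹) = S (t * g * g⁻¹) := hn _ (TwS.rt D hκ hp hS g⁻¹) (t * g)
    rw [mul_inv_cancel_right] at h3
    rw [← h3]
    congr 1
    group
  by_contra hz1
  have hNb : N ≠ ⊥ := by
    intro h
    have h1 : z ∈ N := hz
    rw [h, Subgroup.mem_bot] at h1
    exact hz1 h1
  obtain ⟨ho, hcp⟩ := hG.big N hN hNb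
  obtain ⟨b, hb, hb0⟩ := hne
  apply hb0
  refine Vale.Agent.P092.QT.H715.Q.field_eq_zero D.fr.reg hb.smo.toFd fun x => ?_
  by_contra hne
  obtain ⟨S, hS⟩ : ∃ S : Set G, S = (fun y => x⁻¹ * y) ⁻¹' (N : Set G) := ⟨_, rfl⟩
  have hSo : IsOpen S := by rw [hS]; exact ho.preimage (continuous_const_mul _)
  have hconst : ∀ y ∈ S, b y = b x := by
    intro y hy
    rw [hS] at hy
    have h3 : x⁻¹ * y ∈ N := hy
    have h4 := h3 b hb x
    rwa [mul_inv_cancel_left] at h4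
  have h5 := nsq_lt_top (μ := μ) hb.smo.l2
  unfold nsq at h5
  have h6 : ∫⁻ y in S, ‖b y ω‖ₑ ^ 2 ∂μ ≤ ∫⁻ y, ‖b y ω‖ₑ ^ 2 ∂μ := setLIntegral_le_lintegral _ _
  have h7 : ∫⁻ y in S, ‖b y ω‖ₑ ^ 2 ∂μ = ∫⁻ y in S, ‖b x ω‖ₑ ^ 2 ∂μ :=
    setLIntegral_congr_fun hSo.measurableSet fun y hy => by
      show ‖b y ω‖ₑ ^ 2 = ‖b x ω‖ₑ ^ 2
      rw [hconst y hy]
  have h8 : μ S = ∞ := by
    rw [hS, measure_preimage_mul]
    exact VR.H978.measure_open μ ho hcp
  rw [h7, setLIntegral_const, h8, ENNReal.mul_top (pow_ne_zero 2 (enorm_ne_zero.2 hne))] at h6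
  exact absurd (h6.trans_lt h5) (lt_irrefl _)

end stmt

/-- **Q-GAL** for the places `FacV`. -/
theorem galV : VR.Q.GalStmt := by
  intro Γ X Y K G H _ _ _ _ _ _ _ _ _ _ _ _ _ _ _ _ _ _ _ _ _ _ _ _ _ V W f ρ f' ρ' ω ω' p κ μ
    _ _ ν _ _ D hp hκ hG hH h1 h2 hne ξ hξ
  obtain ⟨c, hc, hc0, h3⟩ := exists_two D hp hκ h1 h2
  rw [Lp.eq_zero_iff_ae_eq_zero]
  obtain ⟨b, hb, hb0⟩ := hne
  exact gal D.fr hκ h3 hc hc0 ⟨b, hb, hb0⟩
    (fun z hz => sep_facV hG D hp hκ ⟨b, hb, hb0⟩ z hz)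
    ⟨Lp.memLp ξ, fun a ha ζ => hξ a ha ζ⟩

end Vale.Agent.P092.VR.H156.Gal
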